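import Vale.Agent.P148.R2.H172.Lln

/-!
Rademacher-Menshov maximal inequality for sums of random variables which are independent off a
graph of bounded degree (for instance 1-dependent sequences).
-/

namespace Vale.Agent.P148.R2.H884

open MeasureTheory ProbabilityTheory Finset
open scoped ComplexConjugate ENNReal

/-! ### deterministic part -/

section det

variable {E : Type*} [SeminormedAddCommGroup E]

/-- the dyadic block sum -/
def T (u : ℕ → E) (j l : ℕ) : E := ∑ i ∈ Ico (l * 2 ^ j) ((l + 1) * 2 ^ j), u i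

/-- the square sum of the block sums of generation `j` in `[0, 2^r)` -/
def A (u : ℕ → E) (r j : ℕ) : ℝ := ∑ l ∈ range (2 ^ (r - j)), ‖T u j l‖ ^ 2

theorem A_nonneg (u : ℕ → E) (r j : ℕ) : 0 ≤ A u r j := Finset.sum_nonneg fun _ _ => by positivity

theorem A_mono (u : ℕ → E) (r j : ℕ) : A u r j ≤ A u (r + 1) j := by
  unfold A
  refine Finset.sum_le_sum_of_subset_of_nonneg ?_ fun _ _ _ => by positivity
  exact range_subset_range.2 (Nat.pow_le_pow_right (by norm_num) (by omega))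

theorem T_shift (u : ℕ → E) {r j : ℕ} (hj : j ≤ r) (l : ℕ) :
    T (fun i => u (2 ^ r + i)) j l = T u j (2 ^ (r - j) + l) := by
  unfold T
  rw [Finset.sum_Ico_add]
  have h : 2 ^ r = 2 ^ (r - j) * 2 ^ j := by rw [← pow_add]; congr 1; omega
  congr 1
  rw [h]
  congr 1 <;> ring

theorem A_shift (u : ℕ → E) {r j : ℕ} (hj : j < r) :
    A (fun i => u (2 ^ r + i)) r j ≤ A u (r + 1) j := by
  unfold A
  have h : 2 ^ (r + 1 - j) = 2 ^ (r - j) + 2 ^ (r - j) := by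
    rw [← two_mul, ← pow_succ']
    congr 1
    omega
  rw [h, Finset.sum_range_add]
  have h1 : ∑ l ∈ range (2 ^ (r - j)), ‖T (fun i => u (2 ^ r + i)) j l‖ ^ 2 =
      ∑ l ∈ range (2 ^ (r - j)), ‖T u j (2 ^ (r - j) + l)‖ ^ 2 :=
    Finset.sum_congr rfl fun l _ => by rw [T_shift u hj.le]
  rw [h1]
  have h2 : 0 ≤ ∑ l ∈ range (2 ^ (r - j)), ‖T u j l‖ ^ 2 := Finset.sum_nonneg fun _ _ => by positivity
  linarith

theorem norm_sum_lt (r : ℕ) : ∀ (u : ℕ → E) (b : ℕ), b < 2 ^ r →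
    ‖∑ i ∈ range b, u i‖ ≤ ∑ j ∈ range r, √(A u r j) := by
  induction r with
  | zero =>
    intro u b hb
    have : b = 0 := by simpa using hb
    subst this
    simp
  | succ r ih =>
    intro u b hb
    rw [Finset.sum_range_succ]
    by_cases h : b < 2 ^ r
    · refine (ih u b h).trans ?_
      have h1 : ∑ j ∈ range r, √(A u r j) ≤ ∑ j ∈ range r, √(A u (r + 1) j) :=
        Finset.sum_le_sum fun j _ => Real.sqrt_le_sqrt (A_mono u r j)
      have := Real.sqrt_nonneg (A u (r + 1) r)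
      linarith
    · push Not at h
      obtain ⟨c, rfl⟩ := Nat.exists_eq_add_of_le h
      have hc : c < 2 ^ r := by
        rw [pow_succ] at hb
        omega
      rw [Finset.sum_range_add]
      refine (norm_add_le _ _).trans ?_
      rw [add_comm]
      refine add_le_add ?_ ?_
      · refine (ih (fun i => u (2 ^ r + i)) c hc).trans ?_
        exact Finset.sum_le_sum fun j hj =>
          Real.sqrt_le_sqrt (A_shift u (Finset.mem_range.1 hj))
      · apply Real.le_sqrt_of_sq_le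
        unfold A
        have h2 : ∑ i ∈ range (2 ^ r), u i = T u r 0 := by
          unfold T
          rw [zero_mul, zero_add, one_mul, range_eq_Ico]
        rw [h2]
        exact Finset.single_le_sum (f := fun l => ‖T u r l‖ ^ 2) (fun _ _ => by positivity)
          (Finset.mem_range.2 (by positivity))

theorem norm_sum_le (r : ℕ) (u : ℕ → E) {b : ℕ} (hb : b ≤ 2 ^ r) :
    ‖∑ i ∈ range b, u i‖ ≤ ∑ j ∈ range (r + 1), √(A u r j) := by
  rw [Finset.sum_range_succ]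
  rcases hb.lt_or_eq with h | h
  · have := norm_sum_lt r u b h
    have := Real.sqrt_nonneg (A u r r)
    linarith
  · subst h
    have h1 : 0 ≤ ∑ j ∈ range r, √(A u r j) := Finset.sum_nonneg fun _ _ => Real.sqrt_nonneg _
    have h2 : ‖∑ i ∈ range (2 ^ r), u i‖ ≤ √(A u r r) := by
      apply Real.le_sqrt_of_sq_le
      unfold A
      have h2 : ∑ i ∈ range (2 ^ r), u i = T u r 0 := by
        unfold T
        rw [zero_mul, zero_add, one_mul, range_eq_Ico]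
      rw [h2]
      exact Finset.single_le_sum (f := fun l => ‖T u r l‖ ^ 2) (fun _ _ => by positivity)
        (Finset.mem_range.2 (by positivity))
    linarith

/-- the square function -/
def Z (u : ℕ → E) (r : ℕ) : ℝ := (r + 1) * ∑ j ∈ range (r + 1), A u r j

theorem Z_nonneg (u : ℕ → E) (r : ℕ) : 0 ≤ Z u r :=
  mul_nonneg (by positivity) (Finset.sum_nonneg fun _ _ => A_nonneg _ _ _)

theorem norm_sum_sq_le (r : ℕ) (u : ℕ → E) {b : ℕ} (hb : b ≤ 2 ^ r) :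
    ‖∑ i ∈ range b, u i‖ ^ 2 ≤ Z u r := by
  have h1 := norm_sum_le r u hb
  have h2 := sq_sum_le_card_mul_sum_sq (s := range (r + 1)) (f := fun j => √(A u r j))
  have h3 : ∑ j ∈ range (r + 1), √(A u r j) ^ 2 = ∑ j ∈ range (r + 1), A u r j :=
    Finset.sum_congr rfl fun j _ => Real.sq_sqrt (A_nonneg _ _ _)
  rw [h3, card_range] at h2
  push_cast at h2
  calc ‖∑ i ∈ range b, u i‖ ^ 2 ≤ (∑ j ∈ range (r + 1), √(A u r j)) ^ 2 :=
        pow_le_pow_left₀ (norm_nonneg _) h1 2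
    _ ≤ _ := h2

theorem norm_sum_Ico_sq_le (r : ℕ) (u : ℕ → E) {a b : ℕ} (hab : a ≤ b) (hb : b ≤ 2 ^ r) :
    ‖∑ i ∈ Ico a b, u i‖ ^ 2 ≤ 4 * Z u r := by
  have h1 := norm_sum_sq_le r u hb
  have h2 := norm_sum_sq_le r u (hab.trans hb)
  rw [Finset.sum_Ico_eq_sub _ hab]
  have h3 := norm_sub_le (∑ i ∈ range b, u i) (∑ i ∈ range a, u i)
  have h4 : ‖∑ i ∈ range b, u i - ∑ i ∈ range a, u i‖ ^ 2 ≤
      (‖∑ i ∈ range b, u i‖ + ‖∑ i ∈ range a, u i‖) ^ 2 :=
    pow_le_pow_left₀ (norm_nonneg _) h3 2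
  nlinarith [sq_nonneg (‖∑ i ∈ range b, u i‖ - ‖∑ i ∈ range a, u i‖)]

end det

/-! ### expectation -/

section exp

variable {Ω : Type*} [MeasurableSpace Ω] {P : Measure Ω}

theorem integrable_A {u : ℕ → Ω → ℂ} (h2 : ∀ i, MemLp (u i) 2 P) (r j : ℕ) :
    Integrable (fun ω => A (fun i => u i ω) r j) P := by
  unfold A T
  refine integrable_finsetSum _ fun l _ => ?_
  have : MemLp (fun ω => ∑ i ∈ Ico (l * 2 ^ j) ((l + 1) * 2 ^ j), u i ω) 2 P :=
    memLp_finsetSum _ fun i _ => h2 i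
  exact this.integrable_norm_pow (by norm_num)

theorem integral_A_le {u : ℕ → Ω → ℂ} (h2 : ∀ i, MemLp (u i) 2 P) {L : ℝ}
    (hL : ∀ a b, a ≤ b → ∫ ω, ‖∑ i ∈ Ico a b, u i ω‖ ^ 2 ∂P ≤ L * (b - a : ℕ)) {r j : ℕ}
    (hj : j ≤ r) : ∫ ω, A (fun i => u i ω) r j ∂P ≤ L * 2 ^ r := by
  unfold A T
  rw [integral_finsetSum]
  · calc ∑ l ∈ range (2 ^ (r - j)), ∫ ω, ‖∑ i ∈ Ico (l * 2 ^ j) ((l + 1) * 2 ^ j), u i ω‖ ^ 2 ∂P
        ≤ ∑ l ∈ range (2 ^ (r - j)), L * 2 ^ j := by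
          refine Finset.sum_le_sum fun l _ => ?_
          refine (hL _ _ (Nat.mul_le_mul_right _ (Nat.le_succ l))).trans ?_
          have : (l + 1) * 2 ^ j - l * 2 ^ j = 2 ^ j := by
            rw [add_mul, one_mul, Nat.add_sub_cancel_left]
          rw [this]
          push_cast
          exact le_rfl
      _ = L * 2 ^ r := by
          rw [Finset.sum_const, card_range, nsmul_eq_mul]
          have : (2 : ℝ) ^ r = 2 ^ (r - j) * 2 ^ j := by rw [← pow_add]; congr 1; omega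
          rw [this]
          push_cast
          ring
  · intro l _
    have : MemLp (fun ω => ∑ i ∈ Ico (l * 2 ^ j) ((l + 1) * 2 ^ j), u i ω) 2 P :=
      memLp_finsetSum _ fun i _ => h2 i
    exact this.integrable_norm_pow (by norm_num)

theorem integrable_Z {u : ℕ → Ω → ℂ} (h2 : ∀ i, MemLp (u i) 2 P) (r : ℕ) :
    Integrable (fun ω => Z (fun i => u i ω) r) P := by
  unfold Z
  exact (integrable_finsetSum _ fun j _ => integrable_A h2 r j).const_mul _

theorem integral_Z_le {u : ℕ → Ω → ℂ} (h2 : ∀ i, MemLp (u i) 2 P) {L : ℝ}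
    (hL : ∀ a b, a ≤ b → ∫ ω, ‖∑ i ∈ Ico a b, u i ω‖ ^ 2 ∂P ≤ L * (b - a : ℕ)) (r : ℕ) :
    ∫ ω, Z (fun i => u i ω) r ∂P ≤ (r + 1) ^ 2 * (L * 2 ^ r) := by
  unfold Z
  rw [integral_const_mul, integral_finsetSum _ fun j _ => integrable_A h2 r j]
  calc ((r : ℝ) + 1) * ∑ j ∈ range (r + 1), ∫ ω, A (fun i => u i ω) r j ∂P
      ≤ (r + 1) * ∑ j ∈ range (r + 1), L * 2 ^ r := by
        refine mul_le_mul_of_nonneg_left (Finset.sum_le_sum fun j hj => ?_) (by positivity)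
        exact integral_A_le h2 hL (Nat.lt_succ_iff.1 (Finset.mem_range.1 hj))
    _ = _ := by
        rw [Finset.sum_const, card_range, nsmul_eq_mul]
        push_cast
        ring

/-- Rademacher-Menshov with a linear bound of the second moments of all the interval sums. -/
theorem maximal {n : ℕ} {u : ℕ → Ω → ℂ} (h2 : ∀ i < n, MemLp (u i) 2 P) {L : ℝ} (hL0 : 0 ≤ L)
    (hL : ∀ a b, a ≤ b → b ≤ n → ∫ ω, ‖∑ i ∈ Ico a b, u i ω‖ ^ 2 ∂P ≤ L * (b - a : ℕ)) :
    ∃ M : Ω → ℝ, Integrable M P ∧ (∀ ω, 0 ≤ M ω) ∧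
      (∀ ω a b, a ≤ b → b ≤ n → ‖∑ i ∈ Ico a b, u i ω‖ ^ 2 ≤ M ω) ∧
      ∫ ω, M ω ∂P ≤ 8 * (Nat.clog 2 n + 1) ^ 2 * (L * n) := by
  classical
  set r := Nat.clog 2 n with hr
  have hn : n ≤ 2 ^ r := Nat.le_pow_clog (by norm_num) n
  have hn2 : 1 ≤ n → (2 : ℝ) ^ r ≤ 2 * n := by
    intro h1
    rcases Nat.lt_or_ge 1 n with h | h
    · have h3 : 2 ^ (r - 1) < n := Nat.pow_pred_clog_lt_self (by norm_num) h
      have h4 : 0 < r := Nat.clog_pos (by norm_num) h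
      have h5 : 2 ^ r = 2 * 2 ^ (r - 1) := by
        rw [← pow_succ']
        congr 1
        omega
      have h6 : 2 ^ r ≤ 2 * n := by omega
      exact_mod_cast h6
    · have : n = 1 := by omega
      subst this
      have : r = 0 := by rw [hr]; simp
      rw [this]
      norm_num
  let u' : ℕ → Ω → ℂ := fun i ω => if i < n then u i ω else 0
  have e1 : ∀ a b, ∀ ω, ∑ i ∈ Ico a b, u' i ω = ∑ i ∈ Ico (min a n) (min b n), u i ω := by
    intro a b ω
    simp only [u']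
    rw [← Finset.sum_filter]
    congr 1
    ext i
    simp only [mem_filter, mem_Ico]
    omega
  have h2' : ∀ i, MemLp (u' i) 2 P := by
    intro i
    by_cases h : i < n
    · simp only [u', h, if_true]
      exact h2 i h
    · simp only [u', h, if_false]
      exact MemLp.zero'
  have hL' : ∀ a b, a ≤ b → ∫ ω, ‖∑ i ∈ Ico a b, u' i ω‖ ^ 2 ∂P ≤ L * (b - a : ℕ) := by
    intro a b hab
    simp_rw [e1]
    refine (hL _ _ (by omega) (by omega)).trans ?_
    refine mul_le_mul_of_nonneg_left ?_ hL0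
    exact_mod_cast (by omega : min b n - min a n ≤ b - a)
  refine ⟨fun ω => 4 * Z (fun i => u' i ω) r, (integrable_Z h2' r).const_mul 4,
    fun ω => mul_nonneg (by norm_num) (Z_nonneg _ _), ?_, ?_⟩
  · intro ω a b hab hb
    have h := norm_sum_Ico_sq_le r (fun i => u' i ω) hab (hb.trans hn)
    rw [e1, min_eq_left (hab.trans hb), min_eq_left hb] at h
    exact h
  · rw [integral_const_mul]
    have h := integral_Z_le h2' hL' r
    rcases Nat.eq_zero_or_pos n with h0 | h0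
    · have hr0 : r = 0 := by rw [hr, h0]; simp
      have hz : ∫ ω, Z (fun i => u' i ω) r ∂P = 0 := by
        have : ∀ ω, Z (fun i => u' i ω) r = 0 := by
          intro ω
          unfold Z A T
          simp [u', h0]
        simp_rw [this]
        simp
      rw [hz, h0]
      simp
    · have h3 := hn2 h0
      calc 4 * ∫ ω, Z (fun i => u' i ω) r ∂P ≤ 4 * (((r : ℝ) + 1) ^ 2 * (L * 2 ^ r)) := by linarith
        _ ≤ 4 * (((r : ℝ) + 1) ^ 2 * (L * (2 * n))) := by gcongr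
        _ = _ := by ring

/-- maximal inequality for sums of variables independent off a graph of degree at most `d` -/
theorem maximal_graph [IsProbabilityMeasure P] {n : ℕ} (N : ℕ → Finset ℕ) (d : ℕ)
    {v : ℕ → Ω → ℂ} {K : ℝ} (hd : ∀ i < n, (N i).card ≤ d) (h2 : ∀ i < n, MemLp (v i) 2 P)
    (hK0 : 0 ≤ K) (hK : ∀ i < n, ∫ ω, ‖v i ω‖ ^ 2 ∂P ≤ K)
    (hind : ∀ i < n, ∀ j < n, j ∉ N i → IndepFun (v i) (v j) P) :
    ∃ M : Ω → ℝ, Integrable M P ∧ (∀ ω, 0 ≤ M ω) ∧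
      (∀ ω a b, a ≤ b → b ≤ n → ‖∑ i ∈ Ico a b, (v i ω - ∫ ω', v i ω' ∂P)‖ ^ 2 ≤ M ω) ∧
      ∫ ω, M ω ∂P ≤ 8 * (Nat.clog 2 n + 1) ^ 2 * (d * K * n) := by
  refine maximal (u := fun i ω => v i ω - ∫ ω', v i ω' ∂P)
    (fun i hi => (h2 i hi).sub (memLp_const _)) (by positivity) ?_
  intro a b hab hb
  have h : ∀ i ∈ Ico a b, i < n := fun i hi => (mem_Ico.1 hi).2.trans_le hb
  have := H172.variance_sum (Ico a b) N d (fun i hi => hd i (h i hi)) (fun i hi => h2 i (h i hi))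
    hK0 (fun i hi => hK i (h i hi)) (fun i hi j hj => hind i (h i hi) j (h j hj))
  rw [Nat.card_Ico] at this
  linarith

/-- The same for a `1`-dependent sequence with means `c (x_{i+1} - x_i)`. -/
theorem maximal_drift [IsProbabilityMeasure P] {n : ℕ} {v : ℕ → Ω → ℂ} {K : ℝ} (c : ℂ) (x : ℕ → ℂ)
    (h2 : ∀ i < n, MemLp (v i) 2 P) (hK0 : 0 ≤ K) (hK : ∀ i < n, ∫ ω, ‖v i ω‖ ^ 2 ∂P ≤ K)
    (hm : ∀ i < n, ∫ ω, v i ω ∂P = c * (x (i + 1) - x i))
    (hind : ∀ i < n, ∀ j < n, i + 1 < j → IndepFun (v i) (v j) P) :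
    ∃ M : Ω → ℝ, Integrable M P ∧ (∀ ω, 0 ≤ M ω) ∧
      (∀ ω a b, a ≤ b → b ≤ n → ‖∑ i ∈ Ico a b, v i ω - c * (x b - x a)‖ ^ 2 ≤ M ω) ∧
      ∫ ω, M ω ∂P ≤ 24 * (Nat.clog 2 n + 1) ^ 2 * (K * n) := by
  obtain ⟨M, h3, h4, h5, h6⟩ := maximal_graph (P := P) (n := n) (fun i => Icc (i - 1) (i + 1)) 3
    (v := v) (K := K) (fun i _ => by rw [Nat.card_Icc]; omega) h2 hK0 hK (by
      intro i hi j hj hij
      simp only [mem_Icc, not_and_or, not_le] at hij
      rcases hij with h | h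
      · exact (hind j hj i hi (by omega)).symm
      · exact hind i hi j hj h)
  refine ⟨M, h3, h4, ?_, ?_⟩
  · intro ω a b hab hb
    refine le_of_eq_of_le ?_ (h5 ω a b hab hb)
    congr 2
    rw [Finset.sum_sub_distrib]
    congr 1
    have e : ∀ i ∈ Ico a b, ∫ ω', v i ω' ∂P = c * (x (i + 1) - x i) := fun i hi =>
      hm i ((mem_Ico.1 hi).2.trans_le hb)
    rw [Finset.sum_congr rfl e, ← Finset.mul_sum, Finset.sum_Ico_eq_sub _ hab,
      Finset.sum_range_sub, Finset.sum_range_sub]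
    ring
  · calc _ ≤ _ := h6
      _ = _ := by push_cast; ring

/-- Chebyshev for a maximal variable. -/
theorem prob_of_max [IsFiniteMeasure P] {M : Ω → ℝ} (hM : Integrable M P) (h0 : ∀ ω, 0 ≤ M ω) {B : ℝ}
    (hB : ∫ ω, M ω ∂P ≤ B) {r : ℝ} (hr : 0 < r) {S : Set Ω} (hS : ∀ ω ∈ S, r ^ 2 ≤ M ω) :
    P S ≤ ENNReal.ofReal (B / r ^ 2) := by
  have h1 := mul_meas_ge_le_integral_of_nonneg (Filter.Eventually.of_forall h0) hM (r ^ 2)
  calc P S ≤ P {ω | r ^ 2 ≤ M ω} := measure_mono hS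
    _ = ENNReal.ofReal (P.real {ω | r ^ 2 ≤ M ω}) := (ofReal_measureReal).symm
    _ ≤ ENNReal.ofReal (B / r ^ 2) := by
        apply ENNReal.ofReal_le_ofReal
        rw [le_div_iff₀ (by positivity), mul_comm]
        exact h1.trans hB

/-- Probability version of `maximal_drift`. -/
theorem maximal_prob [IsProbabilityMeasure P] {n : ℕ} {v : ℕ → Ω → ℂ} {K : ℝ} (c : ℂ) (x : ℕ → ℂ)
    (h2 : ∀ i < n, MemLp (v i) 2 P) (hK0 : 0 ≤ K) (hK : ∀ i < n, ∫ ω, ‖v i ω‖ ^ 2 ∂P ≤ K)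
    (hm : ∀ i < n, ∫ ω, v i ω ∂P = c * (x (i + 1) - x i))
    (hind : ∀ i < n, ∀ j < n, i + 1 < j → IndepFun (v i) (v j) P) {r : ℝ} (hr : 0 < r) :
    P {ω | ∃ a b, a ≤ b ∧ b ≤ n ∧ r ≤ ‖∑ i ∈ Ico a b, v i ω - c * (x b - x a)‖} ≤
      ENNReal.ofReal (24 * (Nat.clog 2 n + 1) ^ 2 * (K * n) / r ^ 2) := by
  obtain ⟨M, h3, h4, h5, h6⟩ := maximal_drift (P := P) c x h2 hK0 hK hm hind
  refine prob_of_max h3 h4 h6 hr ?_
  rintro ω ⟨a, b, hab, hb, h⟩
  exact (pow_le_pow_left₀ hr.le h 2).trans (h5 ω a b hab hb)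

end exp

end Vale.Agent.P148.R2.H884
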